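import Mathlib

/-! # An ellipse is determined by its perimeter and by the integral of `κ ^ (2/3)` -/

namespace Vale.Agent.N097X

open Real MeasureTheory intervalIntegral

/-- The square of the speed of the ellipse with half axes `1` and `√x`. -/
noncomputable def qq (x t : ℝ) : ℝ := sin t ^ 2 + x * cos t ^ 2

theorem qq_pos {x : ℝ} (hx : 0 < x) (t : ℝ) : 0 < qq x t := by
  have h := sin_sq_add_cos_sq t
  unfold qq
  rcases eq_or_ne (cos t) 0 with h0 | h0
  · rw [h0] at h ⊢; nlinarith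
  · have : 0 < cos t ^ 2 := by positivity
    positivity

theorem qq_cont : Continuous fun z : ℝ × ℝ => qq z.1 z.2 := by
  unfold qq; fun_prop

/-- The integral of a power of `qq`. -/
noncomputable def HH (p x : ℝ) : ℝ := ∫ t in (0 : ℝ)..2 * π, qq x t ^ p

theorem cont_pow {x : ℝ} (hx : 0 < x) (p : ℝ) : Continuous fun t => qq x t ^ p :=
  (qq_cont.comp (Continuous.prodMk_right x)).rpow_const fun t => Or.inl (qq_pos hx t).ne'

theorem HH_pos {x : ℝ} (hx : 0 < x) (p : ℝ) : 0 < HH p x :=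
  intervalIntegral_pos_of_pos ((cont_pow hx p).intervalIntegrable _ _)
    (fun t => rpow_pos_of_pos (qq_pos hx t) p) (by positivity)

theorem HH_deriv {x : ℝ} (hx : 0 < x) (p : ℝ) :
    HasDerivAt (HH p) (∫ t in (0 : ℝ)..2 * π, cos t ^ 2 * p * qq x t ^ (p - 1)) x := by
  have hc : ContinuousOn (fun z : ℝ × ℝ => cos z.2 ^ 2 * p * qq z.1 z.2 ^ (p - 1))
      (Set.Icc (x / 2) (2 * x) ×ˢ Set.uIcc 0 (2 * π)) := by
    refine ContinuousOn.mul (by fun_prop) (qq_cont.continuousOn.rpow_const fun z hz => Or.inl ?_)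
    exact (qq_pos (by linarith [hz.1.1]) _).ne'
  obtain ⟨C, hC⟩ := (isCompact_Icc.prod isCompact_uIcc).exists_bound_of_continuousOn hc
  refine (intervalIntegral.hasDerivAt_integral_of_dominated_loc_of_deriv_le (μ := volume)
    (F := fun y t => qq y t ^ p) (F' := fun y t => cos t ^ 2 * p * qq y t ^ (p - 1))
    (s := Set.Icc (x / 2) (2 * x)) (bound := fun _ => C)
    (Icc_mem_nhds (by linarith) (by linarith)) ?_ ((cont_pow hx p).intervalIntegrable _ _) ?_ ?_
    (by simp) ?_).2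
  · filter_upwards [lt_mem_nhds hx] with y hy using (cont_pow hy p).aestronglyMeasurable
  · exact (Continuous.mul (by fun_prop) (cont_pow hx _)).aestronglyMeasurable
  · exact .of_forall fun t ht y hy => hC (y, t) ⟨hy, Set.uIoc_subset_uIcc ht⟩
  · refine .of_forall fun t _ y hy => ?_
    have h : HasDerivAt (fun y => qq y t) (cos t ^ 2) y := by
      simpa [qq] using ((hasDerivAt_id y).mul_const (cos t ^ 2)).const_add (sin t ^ 2)
    exact h.rpow_const (Or.inl (qq_pos (by linarith [hy.1]) t).ne')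

theorem HH_deriv' {x : ℝ} (hx : 0 < x) (h1 : x < 1) (p : ℝ) :
    HasDerivAt (HH p) (p * (HH (p - 1) x - HH p x) / (1 - x)) x := by
  convert HH_deriv hx p using 1
  rw [HH, HH, ← intervalIntegral.integral_sub ((cont_pow hx _).intervalIntegrable _ _)
    ((cont_pow hx _).intervalIntegrable _ _), ← intervalIntegral.integral_const_mul,
    ← intervalIntegral.integral_div]
  refine intervalIntegral.integral_congr fun t _ => ?_
  have h := sin_sq_add_cos_sq t
  have e : qq x t ^ p = qq x t ^ (p - 1) * qq x t := by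
    rw [← rpow_add_one (qq_pos hx t).ne']; ring_nf
  have h1' : 1 - x ≠ 0 := by linarith
  have e2 : qq x t = 1 - (1 - x) * cos t ^ 2 := by unfold qq; linarith
  rw [e, div_eq_iff h1']
  generalize qq x t ^ (p - 1) = w
  rw [e2]; ring

theorem HH_three {x : ℝ} (hx : 0 < x) : x * HH (-1 / 2 - 1) x = HH (1 / 2) x := by
  have key : ∫ t in (0 : ℝ)..2 * π, (x * qq x t ^ (-1 / 2 - 1 : ℝ) - qq x t ^ (1 / 2 : ℝ)) =
      (1 - x) * (sin (2 * π) * cos (2 * π) * qq x (2 * π) ^ (-1 / 2 : ℝ)) -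
        (1 - x) * (sin 0 * cos 0 * qq x 0 ^ (-1 / 2 : ℝ)) := by
    refine integral_eq_sub_of_hasDerivAt
      (f := fun t => (1 - x) * (sin t * cos t * qq x t ^ (-1 / 2 : ℝ))) (fun t _ => ?_)
      (((cont_pow hx _).const_mul x |>.sub (cont_pow hx _)).intervalIntegrable _ _)
    have hq : HasDerivAt (qq x) (2 * sin t * cos t * (1 - x)) t := by
      have := ((hasDerivAt_sin t).pow 2).add (((hasDerivAt_cos t).pow 2).const_mul x)
      refine HasDerivAt.congr_deriv (f := qq x) this ?_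
      simp; ring
    have := (((hasDerivAt_sin t).mul (hasDerivAt_cos t)).mul
      (hq.rpow_const (p := -1 / 2) (Or.inl (qq_pos hx t).ne'))).const_mul (1 - x)
    refine HasDerivAt.congr_deriv this ?_
    have e1 : qq x t ^ (-1 / 2 : ℝ) = qq x t ^ (-1 / 2 - 1 : ℝ) * qq x t := by
      rw [← rpow_add_one (qq_pos hx t).ne']; ring_nf
    have e2 : qq x t ^ (1 / 2 : ℝ) = qq x t ^ (-1 / 2 - 1 : ℝ) * qq x t * qq x t := by
      rw [← rpow_add_one (qq_pos hx t).ne', ← rpow_add_one (qq_pos hx t).ne']; ring_nf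
    simp only [Pi.mul_apply]
    rw [e1, e2]
    generalize qq x t ^ (-1 / 2 - 1 : ℝ) = w
    have h : sin t ^ 2 = 1 - cos t ^ 2 := by linarith [sin_sq_add_cos_sq t]
    have e3 : qq x t = 1 - (1 - x) * cos t ^ 2 := by unfold qq; linarith
    rw [e3]
    linear_combination (-(w * (1 - x))) * h
  rw [intervalIntegral.integral_sub (((cont_pow hx _).const_mul x).intervalIntegrable _ _)
    ((cont_pow hx _).intervalIntegrable _ _), intervalIntegral.integral_const_mul] at key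
  simp only [sin_two_pi, sin_zero, zero_mul, mul_zero, sub_zero] at key
  unfold HH
  linarith

theorem HH_lower {x : ℝ} (hx : 0 < x) (h1 : x < 1) : x * HH (-1 / 2) x ≤ HH (1 / 2) x := by
  rw [HH, HH, ← intervalIntegral.integral_const_mul]
  refine intervalIntegral.integral_mono_on (by positivity)
    (((cont_pow hx _).const_mul x).intervalIntegrable _ _)
    ((cont_pow hx _).intervalIntegrable _ _) fun t _ => ?_
  have e1 : qq x t ^ (1 / 2 : ℝ) = qq x t * qq x t ^ (-1 / 2 : ℝ) := by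
    rw [mul_comm, ← rpow_add_one (qq_pos hx t).ne']; ring_nf
  rw [e1]
  refine mul_le_mul_of_nonneg_right ?_ (rpow_pos_of_pos (qq_pos hx t) _).le
  unfold qq
  nlinarith [sin_sq_add_cos_sq t, sq_nonneg (sin t)]

theorem qq_mean (x : ℝ) : ∫ t in (0 : ℝ)..2 * π, (qq x t - (1 + x) / 2) = 0 := by
  have hq : Continuous (qq x) := by unfold qq; fun_prop
  rw [intervalIntegral.integral_sub (hq.intervalIntegrable _ _) intervalIntegrable_const]
  unfold qq
  rw [intervalIntegral.integral_add (Continuous.intervalIntegrable (by fun_prop) _ _)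
    (Continuous.intervalIntegrable (by fun_prop) _ _), intervalIntegral.integral_const_mul,
    integral_sin_sq, integral_cos_sq, intervalIntegral.integral_const]
  simp only [sin_two_pi, cos_two_pi, sin_zero, cos_zero, smul_eq_mul]
  ring

theorem HH_upper {x : ℝ} (hx : 0 < x) : HH (1 / 2) x ≤ (1 + x) / 2 * HH (-1 / 2) x := by
  have h0 := qq_mean x
  have m0 : 0 < (1 + x) / 2 := by positivity
  generalize (1 + x) / 2 = m at *
  have hq : Continuous (qq x) := by unfold qq; fun_prop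
  have h1 : ∫ t in (0 : ℝ)..2 * π, (qq x t - m) * m ^ (-1 / 2 : ℝ) = 0 := by
    rw [intervalIntegral.integral_mul_const, h0, zero_mul]
  have c1 : Continuous fun t => qq x t ^ (1 / 2 : ℝ) := cont_pow hx _
  have c2 : Continuous fun t => m * qq x t ^ (-1 / 2 : ℝ) := (cont_pow hx _).const_mul m
  have c3 : Continuous fun t => qq x t ^ (1 / 2 : ℝ) - m * qq x t ^ (-1 / 2 : ℝ) := c1.sub c2
  have c4 : Continuous fun t => (qq x t - m) * m ^ (-1 / 2 : ℝ) := by fun_prop
  have : ∫ t in (0 : ℝ)..2 * π, (qq x t ^ (1 / 2 : ℝ) - m * qq x t ^ (-1 / 2 : ℝ)) ≤ 0 := by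
    refine le_trans (intervalIntegral.integral_mono_on (μ := volume) (by positivity)
      (c3.intervalIntegrable _ _) (c4.intervalIntegrable _ _) fun t _ => ?_) h1.le
    have e1 : qq x t ^ (1 / 2 : ℝ) = qq x t * qq x t ^ (-1 / 2 : ℝ) := by
      rw [mul_comm, ← rpow_add_one (qq_pos hx t).ne']; ring_nf
    rw [e1, ← sub_mul]
    rcases le_total (qq x t) m with h | h
    · exact mul_le_mul_of_nonpos_left (rpow_le_rpow_of_nonpos (qq_pos hx t) h (by norm_num))
        (by linarith)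
    · exact mul_le_mul_of_nonneg_left (rpow_le_rpow_of_nonpos m0 h (by norm_num)) (by linarith)
  rw [intervalIntegral.integral_sub (c1.intervalIntegrable _ _) (c2.intervalIntegrable _ _),
    intervalIntegral.integral_const_mul] at this
  unfold HH
  linarith

/-- The scale invariant quotient is strictly increasing in the ratio of the axes. -/
theorem shape_mono :
    StrictMonoOn (fun x => x * HH (-1 / 2) x ^ 3 / HH (1 / 2) x) (Set.Ioc 0 1) := by
  refine strictMonoOn_of_deriv_pos (convex_Ioc 0 1) (fun x hx => ?_) fun x hx => ?_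
  · exact ((continuousAt_id.mul ((HH_deriv hx.1 _).continuousAt.pow 3)).div
      (HH_deriv hx.1 _).continuousAt (HH_pos hx.1 _).ne').continuousWithinAt
  rw [interior_Ioc] at hx
  obtain ⟨h0, h1⟩ := hx
  have hK := HH_deriv' h0 h1 (-1 / 2)
  have hE := HH_deriv' h0 h1 (1 / 2)
  have e : (1 / 2 - 1 : ℝ) = -1 / 2 := by norm_num
  rw [e] at hE
  have h3 := HH_three h0
  have hl := HH_lower h0 h1
  have hu := HH_upper h0
  have pK := HH_pos h0 (-1 / 2)
  have pE := HH_pos h0 (1 / 2)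
  have D := (((hasDerivAt_id x).mul (hK.pow 3)).div hE pE.ne').deriv
  refine lt_of_lt_of_eq ?_ D.symm
  simp only [Pi.mul_apply, Pi.pow_apply, id]
  refine div_pos ?_ (by positivity)
  have hJ : HH (-1 / 2 - 1) x = HH (1 / 2) x / x := by rw [← h3]; field_simp
  rw [hJ]
  generalize HH (-1 / 2) x = K at *
  generalize HH (1 / 2) x = E at *
  have h1' : 0 < 1 - x := by linarith
  have key : 0 < -3 * E ^ 2 + (2 + 2 * x) * E * K - x * K ^ 2 := by
    nlinarith [mul_nonneg (sub_nonneg.2 hl) (sub_nonneg.2 hu), mul_pos pK pK, mul_pos h0 h1',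
      mul_pos (mul_pos pK pK) (mul_pos h0 h1'), mul_pos (mul_pos pK pK) (mul_pos h1' h1'),
      mul_nonneg (mul_pos pK h1').le (sub_nonneg.2 hl), mul_nonneg (mul_pos pK h1').le (sub_nonneg.2 hu)]
  have : (1 * K ^ 3 + x * (((3 : ℕ) : ℝ) * K ^ (3 - 1) * (-1 / 2 * (E / x - K) / (1 - x)))) * E -
      x * K ^ 3 * (1 / 2 * (K - E) / (1 - x)) =
      K ^ 2 * (-3 * E ^ 2 + (2 + 2 * x) * E * K - x * K ^ 2) / (2 * (1 - x)) := by
    push_cast
    field_simp
    ring
  rw [this]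
  positivity

theorem scale {a : ℝ} (b : ℝ) (ha : 0 < a) (t : ℝ) :
    √(a ^ 2 * sin t ^ 2 + b ^ 2 * cos t ^ 2) = a * qq (b ^ 2 / a ^ 2) t ^ (1 / 2 : ℝ) := by
  rw [← sqrt_eq_rpow, ← sqrt_sq ha.le, ← sqrt_mul (by positivity), sqrt_sq ha.le]
  congr 1
  unfold qq
  field_simp

theorem per_eq {a : ℝ} (b : ℝ) (ha : 0 < a) :
    ∫ t in (0 : ℝ)..2 * π, √(a ^ 2 * sin t ^ 2 + b ^ 2 * cos t ^ 2) =
      a * HH (1 / 2) (b ^ 2 / a ^ 2) := by
  simp only [scale b ha, intervalIntegral.integral_const_mul, HH]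

theorem laz_eq {a b : ℝ} (ha : 0 < a) (hb : 0 < b) :
    ∫ t in (0 : ℝ)..2 * π, 1 / √(a ^ 2 * sin t ^ 2 + b ^ 2 * cos t ^ 2) =
      HH (-1 / 2) (b ^ 2 / a ^ 2) / a := by
  rw [HH, ← intervalIntegral.integral_div]
  refine intervalIntegral.integral_congr fun t _ => ?_
  simp only [scale b ha]
  rw [neg_div, rpow_neg (qq_pos (by positivity) t).le]
  field_simp

/-- Two ellipses with the same perimeter and the same integral of `κ ^ (2/3)` have the same
half axes. -/
theorem ell_unique {a b c d : ℝ} (hb : 0 < b) (hab : b ≤ a) (hd : 0 < d) (hcd : d ≤ c)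
    (hL : ∫ t in (0 : ℝ)..2 * π, √(a ^ 2 * sin t ^ 2 + b ^ 2 * cos t ^ 2) =
      ∫ t in (0 : ℝ)..2 * π, √(c ^ 2 * sin t ^ 2 + d ^ 2 * cos t ^ 2))
    (hI : (a * b) ^ 2 * (∫ t in (0 : ℝ)..2 * π, 1 / √(a ^ 2 * sin t ^ 2 + b ^ 2 * cos t ^ 2)) ^ 3 =
      (c * d) ^ 2 * (∫ t in (0 : ℝ)..2 * π, 1 / √(c ^ 2 * sin t ^ 2 + d ^ 2 * cos t ^ 2)) ^ 3) :
    a = c ∧ b = d := by
  have ha : 0 < a := hb.trans_le hab
  have hc : 0 < c := hd.trans_le hcd
  rw [per_eq b ha, per_eq d hc] at hL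
  rw [laz_eq ha hb, laz_eq hc hd] at hI
  have hx : b ^ 2 / a ^ 2 ∈ Set.Ioc (0 : ℝ) 1 :=
    ⟨by positivity, (div_le_one (by positivity)).2 (by gcongr)⟩
  have hy : d ^ 2 / c ^ 2 ∈ Set.Ioc (0 : ℝ) 1 :=
    ⟨by positivity, (div_le_one (by positivity)).2 (by gcongr)⟩
  have p1 := HH_pos hx.1 (1 / 2)
  have p2 := HH_pos hy.1 (1 / 2)
  have e : b ^ 2 / a ^ 2 = d ^ 2 / c ^ 2 := by
    refine shape_mono.injOn hx hy ?_
    rw [div_eq_div_iff p1.ne' p2.ne']
    have e1 : b ^ 2 / a ^ 2 * HH (-1 / 2) (b ^ 2 / a ^ 2) ^ 3 * a =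
        d ^ 2 / c ^ 2 * HH (-1 / 2) (d ^ 2 / c ^ 2) ^ 3 * c := by
      convert hI using 1 <;> field_simp
    refine mul_left_cancel₀ (mul_pos ha hc).ne' ?_
    linear_combination (c * HH (1 / 2) (d ^ 2 / c ^ 2)) * e1 -
      (d ^ 2 / c ^ 2 * HH (-1 / 2) (d ^ 2 / c ^ 2) ^ 3 * c) * hL
  rw [e] at hL
  have hac : a = c := mul_right_cancel₀ p2.ne' hL
  subst hac
  rw [div_left_inj' (by positivity)] at e
  exact ⟨rfl, (pow_left_inj₀ hb.le hd.le two_ne_zero).1 e⟩

end Vale.Agent.N097X
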