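import Vale.Agent.N097X.Poly
import Vale.Agent.N097X.Ell

/-! # Perimeter and integral of `κ ^ (2/3)` for a unit speed parametrisation of an ellipse -/

namespace Vale.Agent.N097X

open Real Set Filter Topology
open scoped ContDiff ComplexConjugate

variable {Γ : ℝ → ℂ} {L : ℝ} {ψ : ℝ → ℝ}

theorem angle_deriv (sm : ContDiff ℝ ∞ Γ) (cψ : Continuous ψ)
    (tg : ∀ s, deriv Γ s = Complex.I * Complex.exp (ψ s * Complex.I)) (s : ℝ) :
    HasDerivAt ψ (kap Γ s) s := by
  have d1 := ((contDiff_infty_iff_deriv.1 (contDiff_infty_iff_deriv.1 sm).2).1 s).hasDerivAt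
  have d2 := Complex.imCLM.hasFDerivAt.comp_hasDerivAt s (d1.const_mul (conj (deriv Γ s)))
  have e : ∀ t, (conj (deriv Γ s) * deriv Γ t).im = sin (ψ t - ψ s) := fun t => by
    simp only [tg, map_mul, Complex.conj_I, Complex.mul_re, Complex.mul_im, Complex.neg_re,
      Complex.neg_im, Complex.I_re, Complex.I_im, Complex.conj_re, Complex.conj_im,
      Complex.exp_ofReal_mul_I_re, Complex.exp_ofReal_mul_I_im, sin_sub]
    ring
  have d3 : HasDerivAt (fun t => sin (ψ t - ψ s)) (kap Γ s) s := by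
    simp only [← e]
    exact d2
  have d4 := (hasDerivAt_arcsin (x := sin (ψ s - ψ s)) (by simp) (by simp)).comp s d3
  have ev : ∀ᶠ t in 𝓝 s, ψ t - ψ s ∈ Ioo (-(π / 2)) (π / 2) :=
    (cψ.sub continuous_const).continuousAt.preimage_mem_nhds
      (Ioo_mem_nhds (by simpa using pi_pos) (by simpa using pi_pos))
  refine ((d4.add_const (ψ s)).congr_of_eventuallyEq ?_).congr_deriv (by simp)
  filter_upwards [ev] with t ht
  simp only [Function.comp, arcsin_sin ht.1.le ht.2.le, sub_add_cancel]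

theorem qq_per (x p : ℝ) : Function.Periodic (fun t => qq x t ^ p) (2 * π) := fun t => by
  simp only [qq, sin_add_two_pi, cos_add_two_pi]

theorem subst_angle {θ k : ℝ → ℝ} {x : ℝ} (hx : 0 < x) (d : ∀ s, HasDerivAt θ (k s) s)
    (c : Continuous k) (e : θ L = θ 0 + 2 * π) (p : ℝ) :
    ∫ s in (0 : ℝ)..L, qq x (θ s) ^ p * k s = HH p x := by
  have := intervalIntegral.integral_comp_mul_deriv (a := 0) (b := L) (fun s _ => d s)
    c.continuousOn (cont_pow hx p)
  rw [e, (qq_per x p).intervalIntegral_add_eq _ 0, zero_add] at this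
  exact this

theorem ints (O : Oval L Γ) {θ : ℝ → ℝ} {a x : ℝ} (ha : 0 < a) (hx : 0 < x)
    (d : ∀ s, HasDerivAt θ (kap Γ s) s) (e : θ L = θ 0 + 2 * π)
    (k : ∀ s, kap Γ s = qq x (θ s) ^ (3 / 2 : ℝ) / (a * x)) :
    L = a * HH (1 / 2) x ∧ laz Γ L ^ 3 = a * (x * HH (-1 / 2) x ^ 3) := by
  have c := kap_cont O.sm
  have ax : 0 < a * x := by positivity
  constructor
  · rw [← HH_three hx, ← subst_angle hx d c e, ← mul_assoc, ← intervalIntegral.integral_const_mul]
    have : ∀ s, a * x * (qq x (θ s) ^ (-1 / 2 - 1 : ℝ) * kap Γ s) = 1 := fun s => by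
      rw [k, ← mul_div_assoc, ← rpow_add (qq_pos hx _)]
      norm_num
      field_simp
    simp [this]
  · have : laz Γ L = (a * x) ^ (1 / 3 : ℝ) * HH (-1 / 2) x := by
      rw [← subst_angle hx d c e, ← intervalIntegral.integral_const_mul]
      refine intervalIntegral.integral_congr fun s _ => ?_
      have q := qq_pos hx (θ s)
      have e1 : kap Γ s = kap Γ s ^ (1 / 3 : ℝ) * kap Γ s ^ (2 / 3 : ℝ) := by
        rw [← rpow_add (O.pos s)]; norm_num
      have e2 : kap Γ s ^ (1 / 3 : ℝ) = qq x (θ s) ^ (1 / 2 : ℝ) / (a * x) ^ (1 / 3 : ℝ) := by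
        rw [k, div_rpow (by positivity) ax.le, ← rpow_mul q.le]; norm_num
      have e3 : qq x (θ s) ^ (-1 / 2 : ℝ) * qq x (θ s) ^ (1 / 2 : ℝ) = 1 := by
        rw [← rpow_add q]; norm_num
      have e4 : 0 < (a * x) ^ (1 / 3 : ℝ) := by positivity
      conv_rhs => rw [e1, e2]
      generalize qq x (θ s) ^ (-1 / 2 : ℝ) = A at *
      field_simp
      linear_combination (-kap Γ s ^ (2 / 3 : ℝ)) * e3
    rw [this, mul_pow, ← rpow_natCast, ← rpow_mul ax.le]
    norm_num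
    ring

theorem ell_kap (O : Oval L Γ) (tg : ∀ s, deriv Γ s = Complex.I * Complex.exp (ψ s * Complex.I))
    {c : ℂ} {a b φ : ℝ} (ha : 0 < a) (hb : 0 < b)
    (on : ∀ s, (((Γ s - c) * Complex.exp (-(φ * Complex.I))).re / a) ^ 2 +
      (((Γ s - c) * Complex.exp (-(φ * Complex.I))).im / b) ^ 2 = 1) (s : ℝ) :
    kap Γ s = qq (b ^ 2 / a ^ 2) (ψ s - φ + π / 2) ^ (3 / 2 : ℝ) / (a * (b ^ 2 / a ^ 2)) := by
  obtain ⟨d0, c1⟩ := contDiff_infty_iff_deriv.1 O.sm
  obtain ⟨d1, -⟩ := contDiff_infty_iff_deriv.1 c1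
  obtain ⟨u, hu⟩ : ∃ u, u = Complex.exp (-(φ * Complex.I)) := ⟨_, rfl⟩
  rw [← hu] at on
  have R : ∀ {f : ℝ → ℂ} {z : ℂ} {t : ℝ}, HasDerivAt f z t → HasDerivAt (fun t => (f t).re) z.re t :=
    fun h => Complex.reCLM.hasFDerivAt.comp_hasDerivAt _ h
  have J : ∀ {f : ℝ → ℂ} {z : ℂ} {t : ℝ}, HasDerivAt f z t → HasDerivAt (fun t => (f t).im) z.im t :=
    fun h => Complex.imCLM.hasFDerivAt.comp_hasDerivAt _ h
  have D0 := fun t => ((d0 t).hasDerivAt.sub_const c).mul_const u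
  have D1 := fun t => (d1 t).hasDerivAt.mul_const u
  have t1 : ∀ t, ((Γ t - c) * u).re * (deriv Γ t * u).re / a ^ 2 +
      ((Γ t - c) * u).im * (deriv Γ t * u).im / b ^ 2 = 0 := fun t => by
    have d3 : HasDerivAt (fun t => (((Γ t - c) * u).re / a) ^ 2 + (((Γ t - c) * u).im / b) ^ 2) _ t :=
      (((R (D0 t)).div_const a).pow 2).add (((J (D0 t)).div_const b).pow 2)
    rw [funext on] at d3
    have := d3.unique (hasDerivAt_const t 1)
    norm_num at this ⊢
    linear_combination this / 2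
  have d4 : HasDerivAt (fun t => ((Γ t - c) * u).re * (deriv Γ t * u).re / a ^ 2 +
      ((Γ t - c) * u).im * (deriv Γ t * u).im / b ^ 2) _ s :=
    (((R (D0 s)).mul (R (D1 s))).div_const _).add (((J (D0 s)).mul (J (D1 s))).div_const _)
  rw [funext t1] at d4
  have t2 := d4.unique (hasDerivAt_const s 0)
  have d5 : HasDerivAt (fun t => (deriv Γ t * u).re ^ 2 + (deriv Γ t * u).im ^ 2) _ s :=
    ((R (D1 s)).pow 2).add ((J (D1 s)).pow 2)
  have tu : ∀ t, deriv Γ t * u = Complex.I * Complex.exp ((ψ t - φ : ℝ) * Complex.I) := fun t => by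
    rw [tg, hu, mul_assoc, ← Complex.exp_add]
    push_cast
    ring_nf
  have re : ∀ t, (deriv Γ t * u).re = -sin (ψ t - φ) := fun t => by
    rw [tu, Complex.I_mul_re, Complex.exp_ofReal_mul_I_im]
  have im : ∀ t, (deriv Γ t * u).im = cos (ψ t - φ) := fun t => by
    rw [tu, Complex.I_mul_im, Complex.exp_ofReal_mul_I_re]
  have t3 := (d5.congr_of_eventuallyEq (f₁ := fun _ => 1) (.of_forall fun t => by
    simp only [re, im]; linarith [sin_sq_add_cos_sq (ψ t - φ)])).unique (hasDerivAt_const s 1)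
  have t4 : kap Γ s = (conj (deriv Γ s * u) * (deriv (deriv Γ) s * u)).im := by
    have u1 : ‖u‖ = 1 := by
      rw [hu, ← neg_mul, ← Complex.ofReal_neg, Complex.norm_exp_ofReal_mul_I]
    have uu : conj u * u = 1 := by rw [Complex.conj_mul', u1]; simp
    rw [map_mul, mul_mul_mul_comm, uu, mul_one, kap]
  rw [Complex.mul_im, Complex.conj_re, Complex.conj_im] at t4
  have t5 := t1 s
  have t6 := on s
  have k0 := O.pos s
  have sc := sin_sq_add_cos_sq (ψ s - φ)
  have q0 := qq_pos (x := b ^ 2 / a ^ 2) (by positivity) (ψ s - φ + π / 2)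
  have e : qq (b ^ 2 / a ^ 2) (ψ s - φ + π / 2) ^ (3 / 2 : ℝ) =
      √(qq (b ^ 2 / a ^ 2) (ψ s - φ + π / 2)) ^ 3 := by
    rw [sqrt_eq_rpow, ← rpow_natCast _ 3, ← rpow_mul q0.le]; norm_num
  have r0 := sqrt_pos.2 q0
  have r2 := sq_sqrt q0.le
  rw [e]
  generalize √(qq (b ^ 2 / a ^ 2) (ψ s - φ + π / 2)) = r at *
  rw [qq, sin_add_pi_div_two, cos_add_pi_div_two] at r2
  simp only [re, im, Nat.cast_ofNat, Nat.add_one_sub_one, pow_one] at t2 t3 t4 t5
  generalize sin (ψ s - φ) = S at *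
  generalize cos (ψ s - φ) = C at *
  generalize (deriv (deriv Γ) s * u).re = P at *
  generalize (deriv (deriv Γ) s * u).im = Q at *
  generalize ((Γ s - c) * u).re = X at *
  generalize ((Γ s - c) * u).im = Y at *
  generalize kap Γ s = k at *
  have hP : P = -k * C := by linear_combination (-P) * sc - S / 2 * t3 + C * t4
  have hQ : Q = -k * S := by linear_combination (-Q) * sc + C / 2 * t3 + S * t4
  obtain ⟨N, hN⟩ : ∃ N, N = X * C / a ^ 2 + Y * S / b ^ 2 := ⟨_, rfl⟩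
  have hX : X = a ^ 2 * (N * C) := by
    rw [hN]; field_simp at t5 ⊢; linear_combination (-b ^ 2 * X) * sc - S * t5
  have hY : Y = b ^ 2 * (N * S) := by
    rw [hN]; field_simp at t5 ⊢; linear_combination (-a ^ 2 * Y) * sc + C * t5
  have h1 : k * N * b ^ 2 = r ^ 2 := by
    rw [r2, hN]
    rw [hP, hQ] at t2
    field_simp at t2 ⊢
    linear_combination (-1 : ℝ) * t2
  have h2 : (N * a * r) ^ 2 = 1 := by
    rw [mul_pow, r2, ← t6, hX, hY]
    field_simp
  have N0 : 0 < N := by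
    by_contra h
    have : k * N * b ^ 2 ≤ 0 :=
      mul_nonpos_of_nonpos_of_nonneg (mul_nonpos_of_nonneg_of_nonpos k0.le (not_lt.1 h))
        (sq_nonneg _)
    nlinarith
  have h3 : N * a * r = 1 := (pow_eq_one_iff_of_nonneg (by positivity) two_ne_zero).1 h2
  field_simp
  linear_combination (a * r) * h1 - (k * b ^ 2) * h3

theorem shape_unique {a b c d : ℝ} (hb : 0 < b) (hab : b ≤ a) (hd : 0 < d) (hcd : d ≤ c)
    (hL : a * HH (1 / 2) (b ^ 2 / a ^ 2) = c * HH (1 / 2) (d ^ 2 / c ^ 2))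
    (hI : a * (b ^ 2 / a ^ 2 * HH (-1 / 2) (b ^ 2 / a ^ 2) ^ 3) =
      c * (d ^ 2 / c ^ 2 * HH (-1 / 2) (d ^ 2 / c ^ 2) ^ 3)) : a = c ∧ b = d := by
  have ha : 0 < a := hb.trans_le hab
  have hc : 0 < c := hd.trans_le hcd
  refine ell_unique hb hab hd hcd (by rw [per_eq b ha, per_eq d hc, hL]) ?_
  rw [laz_eq ha hb, laz_eq hc hd]
  convert hI using 1 <;> field_simp

end Vale.Agent.N097X
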