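import Mathlib

/-! # The defect of a short chord -/

namespace Vale.Agent.N097X

open Real Set
open scoped ContDiff ComplexConjugate RealInnerProductSpace

theorem step_ge {f f' : ℝ → ℝ} {c τ : ℝ} {k : ℕ} (hf : ∀ t, HasDerivAt f (f' t) t) (h0 : f 0 = 0)
    (hb : ∀ t ∈ Icc 0 τ, c * t ^ k ≤ f' t) : ∀ t ∈ Icc 0 τ, c / (k + 1) * t ^ (k + 1) ≤ f t := by
  intro t ht
  have hd : ∀ t, HasDerivAt (fun t => f t - c / (k + 1) * t ^ (k + 1)) (f' t - c * t ^ k) t :=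
    fun t => ((hf t).sub ((hasDerivAt_pow (k + 1) t).const_mul (c / (k + 1)))).congr_deriv (by
      push_cast; field_simp)
  have := monotoneOn_of_deriv_nonneg (convex_Icc 0 τ)
    (fun t _ => (hd t).continuousAt.continuousWithinAt)
    (fun t _ => (hd t).differentiableAt.differentiableWithinAt)
    (fun t ht => by rw [(hd t).deriv]; linarith [hb t (interior_subset ht)])
    ⟨le_rfl, ht.1.trans ht.2⟩ ht ht.1
  simp only [h0] at this
  simpa using this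

theorem four_ge {f f1 f2 f3 f4 : ℝ → ℝ} {c τ : ℝ} (h0 : ∀ t, HasDerivAt f (f1 t) t)
    (h1 : ∀ t, HasDerivAt f1 (f2 t) t) (h2 : ∀ t, HasDerivAt f2 (f3 t) t)
    (h3 : ∀ t, HasDerivAt f3 (f4 t) t) (e0 : f 0 = 0) (e1 : f1 0 = 0) (e2 : f2 0 = 0)
    (e3 : f3 0 = 0) (hb : ∀ t ∈ Icc 0 τ, c ≤ f4 t) : ∀ t ∈ Icc 0 τ, c / 24 * t ^ 4 ≤ f t := by
  have a := step_ge h0 e0 (step_ge h1 e1 (step_ge h2 e2 (step_ge (k := 0) (c := c) h3 e3
    fun t ht => by simpa using hb t ht)))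
  intro t ht
  convert a t ht using 2
  push_cast; ring

/-- The curvature. -/
noncomputable def kap (Γ : ℝ → ℂ) (s : ℝ) : ℝ := (conj (deriv Γ s) * deriv (deriv Γ) s).im

variable {Γ : ℝ → ℂ} {L : ℝ}

theorem per_deriv (p : Function.Periodic Γ L) : Function.Periodic (deriv Γ) L := fun x => by
  rw [← deriv_comp_add_const]
  congr 1
  exact funext p

theorem kap_cont (hΓ : ContDiff ℝ ∞ Γ) : Continuous (kap Γ) := by
  have c1 := (contDiff_infty_iff_deriv.1 hΓ).2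
  have c2 := (contDiff_infty_iff_deriv.1 c1).2
  exact Complex.continuous_im.comp ((Complex.continuous_conj.comp c1.continuous).mul c2.continuous)

theorem kap_per (p : Function.Periodic Γ L) : Function.Periodic (kap Γ) L := fun x => by
  unfold kap
  rw [per_deriv p x, per_deriv (per_deriv p) x]

theorem per_unif {w : ℝ → ℝ} (L0 : 0 < L) (c : Continuous w) (p : Function.Periodic w L) {η : ℝ}
    (η0 : 0 < η) : ∃ τ, 0 < τ ∧ ∀ a, ∀ t ∈ Icc 0 τ, |w (a + t) - w a| ≤ η := by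
  obtain ⟨τ, τ0, h⟩ := Metric.uniformContinuousOn_iff_le.1
    ((isCompact_Icc (a := 0) (b := L + 1)).uniformContinuousOn_of_continuous c.continuousOn) η η0
  refine ⟨min τ 1, lt_min τ0 one_pos, fun a t ht => ?_⟩
  have q : Function.Periodic (fun a => |w (a + t) - w a|) L := fun a => by
    simp only [add_right_comm a L t, p a, p (a + t)]
  obtain ⟨b, hb, e⟩ := q.exists_mem_Ico₀ L0 a
  have h1 := ht.2.trans (min_le_left _ _)
  have h2 := ht.2.trans (min_le_right _ _)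
  rw [e]
  exact h (b + t) ⟨by linarith [hb.1, ht.1], by linarith [hb.2]⟩ b ⟨hb.1, by linarith [hb.2]⟩
    (by rw [Real.dist_eq, add_sub_cancel_left, abs_of_nonneg ht.1]; exact h1)

theorem chord_le (hΓ : ContDiff ℝ ∞ Γ) (u : ∀ s, ‖deriv Γ s‖ = 1) {a b : ℝ} (h : a ≤ b) :
    ‖Γ b - Γ a‖ ≤ b - a := by
  have := (convex_univ (𝕜 := ℝ) (E := ℝ)).norm_image_sub_le_of_norm_deriv_le (f := Γ) (C := 1)
    (fun x _ => (contDiff_infty_iff_deriv.1 hΓ).1 x) (fun x _ => (u x).le) (mem_univ a) (mem_univ b)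
  rwa [one_mul, Real.norm_of_nonneg (sub_nonneg.2 h)] at this

theorem sq_defect (hΓ : ContDiff ℝ ∞ Γ) (L0 : 0 < L) (p : Function.Periodic Γ L)
    (u : ∀ s, ‖deriv Γ s‖ = 1) {η : ℝ} (η0 : 0 < η) : ∃ τ, 0 < τ ∧ ∀ a, ∀ t ∈ Icc 0 τ,
      |t ^ 2 - ‖Γ (a + t) - Γ a‖ ^ 2 - kap Γ a ^ 2 / 12 * t ^ 4| ≤ η * t ^ 4 := by
  obtain ⟨d0, c1⟩ := contDiff_infty_iff_deriv.1 hΓ
  obtain ⟨d1, c2⟩ := contDiff_infty_iff_deriv.1 c1
  obtain ⟨d2, c3⟩ := contDiff_infty_iff_deriv.1 c2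
  obtain ⟨d3, c4⟩ := contDiff_infty_iff_deriv.1 c3
  have p4 := per_deriv (per_deriv (per_deriv (per_deriv p)))
  have kp : ∀ s, kap Γ s = (conj (deriv Γ s) * deriv (deriv Γ) s).im := fun _ => rfl
  have H0 := fun s => (d0 s).hasDerivAt
  have H1 := fun s => (d1 s).hasDerivAt
  have H2 := fun s => (d2 s).hasDerivAt
  have H3 := fun s => (d3 s).hasDerivAt
  generalize deriv (deriv (deriv (deriv Γ))) = G4 at *
  generalize deriv (deriv (deriv Γ)) = G3 at *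
  generalize deriv (deriv Γ) = G2 at *
  generalize deriv Γ = G1 at *
  obtain ⟨M, hM⟩ := (p4.isBounded_of_continuous L0.ne' c4.continuous).exists_norm_le
  have M0 : 0 ≤ M := (norm_nonneg _).trans (hM _ ⟨0, rfl⟩)
  have i11 : ∀ s, ⟪G1 s, G1 s⟫ = 1 := fun s => by rw [real_inner_self_eq_norm_sq, u, one_pow]
  have i12 : ∀ s, ⟪G1 s, G2 s⟫ = 0 := fun s => by
    have a := (H1 s).inner ℝ (H1 s)
    simp only [i11] at a
    have b := a.unique (hasDerivAt_const s 1)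
    rw [real_inner_comm (G1 s) (G2 s)] at b
    linarith
  have i13 : ∀ s, ⟪G1 s, G3 s⟫ = -kap Γ s ^ 2 := fun s => by
    have a := (H1 s).inner ℝ (H2 s)
    simp only [i12] at a
    have b := a.unique (hasDerivAt_const s 0)
    have c := i12 s
    have d : ‖conj (G1 s) * G2 s‖ = ‖G2 s‖ := by rw [norm_mul, Complex.norm_conj, u, one_mul]
    rw [real_inner_self_eq_norm_sq, ← d, Complex.sq_norm, Complex.normSq_apply, ← kp] at b
    rw [Complex.inner, mul_comm] at c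
    rw [c] at b
    linarith
  obtain ⟨τ, τ0, hτ⟩ := per_unif (w := fun s => kap Γ s ^ 2) L0 ((kap_cont hΓ).pow 2)
    (fun s => by simp only [kap_per p s]) η0
  refine ⟨min τ (η / (M + 1)), lt_min τ0 (by positivity), fun a => ?_⟩
  have S : ∀ {G G' : ℝ → ℂ}, (∀ s, HasDerivAt G (G' s) s) → ∀ t,
      HasDerivAt (fun t => G (a + t)) (G' (a + t)) t := fun h t => (h (a + t)).comp_const_add a t
  have D : ∀ t, HasDerivAt (fun t => Γ (a + t) - Γ a) (G1 (a + t)) t :=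
    fun t => (S H0 t).sub_const _
  have g0 : ∀ t, HasDerivAt (fun t => t ^ 2 - ⟪Γ (a + t) - Γ a, Γ (a + t) - Γ a⟫)
      (2 * t - 2 * ⟪Γ (a + t) - Γ a, G1 (a + t)⟫) t := fun t =>
    ((hasDerivAt_pow 2 t).sub ((D t).inner ℝ (D t))).congr_deriv (by
      rw [real_inner_comm (Γ (a + t) - Γ a) (G1 (a + t))]; simp; ring)
  have g1 : ∀ t, HasDerivAt (fun t => 2 * t - 2 * ⟪Γ (a + t) - Γ a, G1 (a + t)⟫)
      (-2 * ⟪Γ (a + t) - Γ a, G2 (a + t)⟫) t := fun t =>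
    (((hasDerivAt_id t).const_mul 2).sub (((D t).inner ℝ (S H1 t)).const_mul 2)).congr_deriv (by
      rw [i11]; ring)
  have g2 : ∀ t, HasDerivAt (fun t => -2 * ⟪Γ (a + t) - Γ a, G2 (a + t)⟫)
      (-2 * ⟪Γ (a + t) - Γ a, G3 (a + t)⟫) t := fun t =>
    (((D t).inner ℝ (S H2 t)).const_mul (-2)).congr_deriv (by rw [i12]; ring)
  have g3 : ∀ t, HasDerivAt (fun t => -2 * ⟪Γ (a + t) - Γ a, G3 (a + t)⟫)
      (2 * kap Γ (a + t) ^ 2 - 2 * ⟪Γ (a + t) - Γ a, G4 (a + t)⟫) t := fun t =>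
    (((D t).inner ℝ (S H3 t)).const_mul (-2)).congr_deriv (by rw [i13]; ring)
  have bd : ∀ t ∈ Icc 0 (min τ (η / (M + 1))), |2 * kap Γ (a + t) ^ 2 -
      2 * ⟪Γ (a + t) - Γ a, G4 (a + t)⟫ - 2 * kap Γ a ^ 2| ≤ 4 * η := fun t ht => by
    have a1 := abs_le.1 (hτ a t ⟨ht.1, ht.2.trans (min_le_left _ _)⟩)
    have a2 : ‖Γ (a + t) - Γ a‖ ≤ t := by
      have := (convex_univ (𝕜 := ℝ) (E := ℝ)).norm_image_sub_le_of_norm_hasDerivWithin_le
        (f := Γ) (C := 1) (fun x _ => (H0 x).hasDerivWithinAt) (fun x _ => (u x).le)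
        (mem_univ a) (mem_univ (a + t))
      rwa [one_mul, add_sub_cancel_left, Real.norm_of_nonneg ht.1] at this
    have a3 : t * (M + 1) ≤ η := (le_div_iff₀ (by positivity)).1 (ht.2.trans (min_le_right _ _))
    have a4 := abs_le.1 ((abs_real_inner_le_norm (Γ (a + t) - Γ a) (G4 (a + t))).trans
      (mul_le_mul a2 (hM _ ⟨a + t, rfl⟩) (norm_nonneg _) ht.1))
    rw [abs_le]
    constructor <;> nlinarith [ht.1]
  intro t ht
  have lo := four_ge (c := 2 * kap Γ a ^ 2 - 4 * η) g0 g1 g2 g3 (by simp) (by simp) (by simp)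
    (by simp) (fun t ht => by linarith [(abs_le.1 (bd t ht)).1]) t ht
  have up := four_ge (c := -(2 * kap Γ a ^ 2 + 4 * η)) (fun t => (g0 t).neg) (fun t => (g1 t).neg)
    (fun t => (g2 t).neg) (fun t => (g3 t).neg) (by simp) (by simp) (by simp)
    (by simp) (fun t ht => by linarith [(abs_le.1 (bd t ht)).2]) t ht
  simp only [Pi.neg_apply, real_inner_self_eq_norm_sq] at lo up
  have : 0 ≤ η * t ^ 4 := by have := ht.1; positivity
  rw [abs_le]
  constructor <;> linarith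

theorem defect (hΓ : ContDiff ℝ ∞ Γ) (L0 : 0 < L) (p : Function.Periodic Γ L)
    (u : ∀ s, ‖deriv Γ s‖ = 1) {η : ℝ} (η0 : 0 < η) : ∃ τ, 0 < τ ∧ ∀ a, ∀ t ∈ Icc 0 τ,
      |t - ‖Γ (a + t) - Γ a‖ - kap Γ a ^ 2 / 24 * t ^ 3| ≤ η * t ^ 3 := by
  obtain ⟨τ, τ0, h⟩ := sq_defect hΓ L0 p u η0
  obtain ⟨M, hM⟩ := ((kap_per p).isBounded_of_continuous L0.ne' (kap_cont hΓ)).exists_norm_le
  obtain ⟨C, hC⟩ : ∃ C, C = M ^ 2 / 12 + η := ⟨_, rfl⟩
  have C0 : 0 < C := by rw [hC]; positivity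
  refine ⟨min τ (min 1 (η / C ^ 2)), lt_min τ0 (lt_min one_pos (by positivity)), fun a t ht => ?_⟩
  have t0 := ht.1
  have t1 : t ≤ 1 := ht.2.trans ((min_le_right _ _).trans (min_le_left _ _))
  have t2 : t * C ^ 2 ≤ η :=
    (le_div_iff₀ (by positivity)).1 (ht.2.trans ((min_le_right _ _).trans (min_le_right _ _)))
  obtain ⟨a1, a2⟩ := abs_le.1 (h a t ⟨t0, ht.2.trans (min_le_left _ _)⟩)
  have a3 := chord_le hΓ u (a := a) (b := a + t) (by linarith)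
  rw [add_sub_cancel_left] at a3
  have a4 := norm_nonneg (Γ (a + t) - Γ a)
  have a5 : kap Γ a ^ 2 ≤ M ^ 2 := by
    rw [← sq_abs]; exact pow_le_pow_left₀ (abs_nonneg _) (hM _ ⟨a, rfl⟩) 2
  generalize ‖Γ (a + t) - Γ a‖ = c at *
  generalize kap Γ a ^ 2 = k at *
  rcases t0.eq_or_lt with rfl | tp
  · obtain rfl : c = 0 := le_antisymm a3 a4
    simp
  obtain ⟨d, rfl⟩ : ∃ d, c = t - d := ⟨t - c, by ring⟩
  have d0 : 0 ≤ d := by linarith
  have t4 : 0 < t ^ 4 := by positivity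
  have b1 : d ≤ C * t ^ 3 := by
    refine le_of_mul_le_mul_left ?_ tp
    have : k / 12 * t ^ 4 ≤ M ^ 2 / 12 * t ^ 4 := by gcongr
    rw [hC]; nlinarith
  have b2 : d ^ 2 ≤ η * t ^ 4 := by
    calc d ^ 2 ≤ (C * t ^ 3) ^ 2 := by gcongr
      _ = t * C ^ 2 * t * t ^ 4 := by ring
      _ ≤ η * 1 * t ^ 4 := by gcongr
      _ = _ := by ring
  rw [abs_le]
  constructor
  · refine le_of_mul_le_mul_left ?_ tp
    nlinarith [mul_pos η0 t4]
  · refine le_of_mul_le_mul_left ?_ tp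
    nlinarith [mul_pos η0 t4]

end Vale.Agent.N097X
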