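import Vale.Agent.N097.Top
import Vale.Agent.N097X.Arc

/-! # The marked length spectrum near the boundary determines an ellipse up to a rigid motion -/

namespace Vale.Agent.N097X

open Real Set Filter Topology Vale.Agent.N097 Vale.Agent.P097B

variable {Ω Ω' : Set ℂ} {L L' : ℝ} {Γ Γ' : ℝ → ℂ}

theorem oval_of (T : Arc.Table Ω L Γ) : Oval L Γ :=
  ⟨T.2.2.2.1, T.2.2.2.2.1, T.2.2.2.2.2.1, T.2.2.2.2.2.2.2.2.1, T.2.2.2.2.2.2.2.2.2⟩

theorem ml_greatest (T : Arc.Table Ω L Γ) {n p : ℕ} (p0 : 0 < p) (pn : p < n) :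
    IsGreatest {ℓ | ∃ s : ℕ → ℝ, (∀ j, s j ≤ s (j + 1) ∧ s (j + 1) ≤ s j + L) ∧
      s n = s 0 + p * L ∧ ℓ = ∑ j ∈ Finset.range n, ‖Γ (s (j + 1)) - Γ (s j)‖}
      (maxLength L Γ n p) := by
  obtain ⟨h, ψ, σ, D⟩ := exists_dic T
  have el : ∀ a b, ell h (ψ a) (ψ b) = ‖Γ b - Γ a‖ := fun a b => by
    simp only [ell, D.bd, D.a1]
  rw [D.ml p0 pn]
  constructor
  · obtain ⟨x, G, -⟩ := exists_gmax D.H p0 pn 0
    refine ⟨fun j => σ (x j), fun j => ⟨D.mono.le_iff_le.1 ?_, D.mono.le_iff_le.1 ?_⟩, ?_, ?_⟩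
    · rw [D.a2, D.a2]; exact_mod_cast (G.1.2 j).1
    · rw [D.pψ, D.a2, D.a2]; exact_mod_cast (G.1.2 j).2
    · have a := G.1.1 0
      have b := int_per D.pσ (x 0) p
      simp only [zero_add, Int.cast_natCast] at a b
      simp only [a, b, Nat.cast_zero]
    · rw [G.ml]
      exact Finset.sum_congr rfl fun j _ => by rw [← el, D.a2, D.a2, Nat.cast_add, Nat.cast_one]
  · rintro _ ⟨s, hs, e, rfl⟩
    have P : ∀ r, Pth h (ψ (s 0)) r (ψ (s r)) (∑ j ∈ Finset.range r, ‖Γ (s (j + 1)) - Γ (s j)‖) :=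
      fun r => by
        induction r with
        | zero => simpa using Pth.nil
        | succ k ih =>
          rw [Finset.sum_range_succ, ← el]
          exact ih.snoc (D.mono.monotone (hs k).1) (D.pψ _ ▸ D.mono.monotone (hs k).2)
    have a := P n
    have b := int_per D.pψ (s 0) p
    simp only [Int.cast_natCast] at b
    rw [e, b] at a
    exact a.le D.H p0 pn

/-- The first two terms of the marked length spectrum near the boundary. -/
theorem expansion (T : Arc.Table Ω L Γ) {ε : ℝ} (ε0 : 0 < ε) : ∃ η, 0 < η ∧ ∀ p n : ℕ, 0 < p →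
    0 < n → (p : ℝ) / n < η →
      |(n : ℝ) ^ 2 / p ^ 3 * (p * L - maxLength L Γ n p) - laz Γ L ^ 3 / 24| ≤ ε := by
  have O := oval_of T
  have I0 := O.laz_pos
  obtain ⟨η, η0, h⟩ := O.low (ε := ε / laz Γ L ^ 3) (by positivity)
  obtain ⟨θ, θ0, k⟩ := O.up (ε := ε / laz Γ L ^ 3) (by positivity)
  refine ⟨min 1 (min η θ), lt_min one_pos (lt_min η0 θ0), fun p n p0 n0 l => ?_⟩
  have pn : p < n := by
    have := l.trans_le (min_le_left _ _)
    rw [div_lt_one (by positivity)] at this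
    exact_mod_cast this
  obtain ⟨⟨s, hs, e, m⟩, u⟩ := ml_greatest T p0 pn
  have a := h n p n0 (l.trans_le ((min_le_right _ _).trans (min_le_left _ _))) s hs e
  obtain ⟨t, ht, e', b⟩ := k n p n0 (l.trans_le ((min_le_right _ _).trans (min_le_right _ _)))
  have c := u ⟨t, ht, e', rfl⟩
  rw [← m] at a
  have w : (0 : ℝ) < n ^ 2 / p ^ 3 := by positivity
  have a' := mul_le_mul_of_nonneg_left a w.le
  have b' := mul_le_mul_of_nonneg_left ((sub_le_sub_left c _).trans b) w.le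
  have e1 : (n : ℝ) ^ 2 / p ^ 3 * ((1 / 24 - ε / laz Γ L ^ 3) * (n * (p / n * laz Γ L) ^ 3)) =
      laz Γ L ^ 3 / 24 - ε := by field_simp
  have e2 : (n : ℝ) ^ 2 / p ^ 3 * ((1 / 24 + ε / laz Γ L ^ 3) * (n * (p / n * laz Γ L) ^ 3)) =
      laz Γ L ^ 3 / 24 + ε := by field_simp
  rw [e1] at a'
  rw [e2] at b'
  exact abs_le.2 ⟨by linarith, by linarith⟩

theorem tendsto_one (T : Arc.Table Ω L Γ) :
    Tendsto (fun n : ℕ => (n : ℝ) ^ 2 * (L - maxLength L Γ n 1)) atTop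
      (𝓝 (laz Γ L ^ 3 / 24)) := by
  refine Metric.tendsto_nhds.2 fun ε ε0 => ?_
  obtain ⟨η, η0, h⟩ := expansion T (half_pos ε0)
  filter_upwards [(tendsto_const_div_atTop_nhds_zero_nat (1 : ℝ)).eventually (gt_mem_nhds η0),
    eventually_gt_atTop 0] with n a b
  have := h 1 n one_pos b (by simpa using a)
  simp only [Nat.cast_one, one_pow, div_one, one_mul] at this
  exact this.trans_lt (half_lt_self ε0)

/-- Infinitely many terms of the spectrum give the two invariants. -/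
theorem invariants (T : Arc.Table Ω L Γ) (T' : Arc.Table Ω' L' Γ')
    (e : ∃ᶠ n in atTop, maxLength L Γ n 1 = maxLength L' Γ' n 1) :
    L = L' ∧ laz Γ L ^ 3 = laz Γ' L' ^ 3 := by
  obtain ⟨φ, mo, hφ⟩ := extraction_of_frequently_atTop e
  have a := ((tendsto_one T).sub (tendsto_one T')).comp mo.tendsto_atTop
  have b : Tendsto (fun k => ((φ k : ℕ) : ℝ) ^ 2 * (L - L')) atTop
      (𝓝 (laz Γ L ^ 3 / 24 - laz Γ' L' ^ 3 / 24)) := a.congr fun k => by
    simp only [Function.comp, hφ]; ring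
  have c : Tendsto (fun k => (((φ k : ℕ) : ℝ) ^ 2)⁻¹) atTop (𝓝 0) :=
    tendsto_inv_atTop_zero.comp ((tendsto_pow_atTop two_ne_zero).comp
      (tendsto_natCast_atTop_atTop.comp mo.tendsto_atTop))
  have d : L - L' = 0 := by
    have := c.mul b
    rw [zero_mul] at this
    refine tendsto_nhds_unique (tendsto_const_nhds.congr' ?_) this
    filter_upwards [mo.tendsto_atTop.eventually_gt_atTop 0] with k hk
    field_simp
  simp only [d, mul_zero] at b
  exact ⟨by linarith, by linarith [tendsto_nhds_unique b tendsto_const_nhds]⟩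

/-- The open elliptic disc. -/
def disc (c : ℂ) (a b φ : ℝ) : Set ℂ :=
  {z | (((z - c) * Complex.exp (-(φ * Complex.I))).re / a) ^ 2 +
    (((z - c) * Complex.exp (-(φ * Complex.I))).im / b) ^ 2 < 1}

theorem disc_of (E : Arc.IsEllipse Ω) : ∃ c a b φ, 0 < b ∧ b ≤ a ∧ Ω = disc c a b φ := by
  obtain ⟨c, a, b, φ, a0, b0, e⟩ := E
  rcases le_total b a with h | h
  · exact ⟨c, a, b, φ, b0, h, e⟩
  refine ⟨c, b, a, φ + π / 2, a0, h, e.trans (Set.ext fun z => ?_)⟩
  have : Complex.exp (-((φ + π / 2 : ℝ) * Complex.I)) =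
      Complex.exp (-(φ * Complex.I)) * -Complex.I := by
    rw [← Complex.exp_neg_pi_div_two_mul_I, ← Complex.exp_add]
    push_cast
    ring_nf
  simp only [disc, mem_ofPred_eq, this, ← mul_assoc, mul_neg, Complex.neg_re, Complex.neg_im,
    Complex.mul_I_re, Complex.mul_I_im, neg_neg, neg_div, even_two, Even.neg_pow, add_comm]

theorem disc_ints (T : Arc.Table Ω L Γ) {c : ℂ} {a b φ : ℝ} (hb : 0 < b) (hab : b ≤ a)
    (e : Ω = disc c a b φ) : L = a * HH (1 / 2) (b ^ 2 / a ^ 2) ∧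
      laz Γ L ^ 3 = a * (b ^ 2 / a ^ 2 * HH (-1 / 2) (b ^ 2 / a ^ 2) ^ 3) := by
  have ha : 0 < a := hb.trans_le hab
  have O := oval_of T
  obtain ⟨h, ψ, σ, D⟩ := exists_dic T
  have fr : range Γ = frontier (disc c a b φ) := e ▸ T.2.2.2.2.2.2.2.1
  refine ints O ha (by positivity) (θ := fun s => ψ s - φ + π / 2)
    (fun s => ((angle_deriv O.sm D.cψ D.tg s).sub_const φ).add_const _) ?_
    (ell_kap O D.tg (c := c) ha hb fun s => ?_)
  · have := D.pψ 0
    rw [zero_add] at this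
    simp only [this]
    ring
  · have : Γ s ∈ frontier (disc c a b φ) := fr ▸ mem_range_self s
    exact frontier_lt_subset_eq (f := fun z =>
      (((z - c) * Complex.exp (-(φ * Complex.I))).re / a) ^ 2 +
        (((z - c) * Complex.exp (-(φ * Complex.I))).im / b) ^ 2) (by fun_prop) continuous_const this

theorem disc_move (c c' : ℂ) (a b φ φ' : ℝ) : ∃ w v : ℂ, ‖w‖ = 1 ∧
    disc c a b φ = (fun z => w * z + v) '' disc c' a b φ' := by
  have n : ‖Complex.exp ((φ - φ' : ℝ) * Complex.I)‖ = 1 := Complex.norm_exp_ofReal_mul_I _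
  have k : Complex.exp ((φ - φ' : ℝ) * Complex.I) * Complex.exp (-(φ * Complex.I)) =
      Complex.exp (-(φ' * Complex.I)) := by
    rw [← Complex.exp_add]
    push_cast
    ring_nf
  generalize Complex.exp ((φ - φ' : ℝ) * Complex.I) = w at n k
  have w0 : w ≠ 0 := by rintro rfl; simp at n
  have m : ∀ z, w * z + (c - w * c') ∈ disc c a b φ ↔ z ∈ disc c' a b φ' := fun z => by
    simp only [disc, mem_ofPred_eq, ← k]
    rw [show (w * z + (c - w * c') - c) * Complex.exp (-(φ * Complex.I)) =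
      (z - c') * (w * Complex.exp (-(φ * Complex.I))) by ring]
  refine ⟨w, c - w * c', n, Set.ext fun z => ⟨fun h => ?_, ?_⟩⟩
  · have : w * ((z - (c - w * c')) / w) + (c - w * c') = z := by field_simp; ring
    exact ⟨_, (m _).1 (this.symm ▸ h), this⟩
  · rintro ⟨y, hy, rfl⟩
    exact (m y).2 hy

/-- Two ellipses with the same two invariants differ by a rigid motion. -/
theorem congruent (T : Arc.Table Ω L Γ) (T' : Arc.Table Ω' L' Γ') (E : Arc.IsEllipse Ω)
    (E' : Arc.IsEllipse Ω') (e : L = L') (e' : laz Γ L ^ 3 = laz Γ' L' ^ 3) :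
    ∃ w v : ℂ, ‖w‖ = 1 ∧ Ω = (fun z => w * z + v) '' Ω' := by
  obtain ⟨c, a, b, φ, b0, ba, h⟩ := disc_of E
  obtain ⟨c', a', b', φ', b0', ba', h'⟩ := disc_of E'
  obtain ⟨i1, i2⟩ := disc_ints T b0 ba h
  obtain ⟨j1, j2⟩ := disc_ints T' b0' ba' h'
  obtain ⟨rfl, rfl⟩ := shape_unique b0 ba b0' ba' (by rw [← i1, ← j1, e]) (by rw [← i2, ← j2, e'])
  rw [h, h']
  exact disc_move ..

/-- Marked length spectral rigidity of the ellipse. -/
theorem rigid (T : Arc.Table Ω L Γ) (B : Arc.Filled L Γ → Arc.IsEllipse Ω)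
    (T' : Arc.Table Ω' L' Γ') (B' : Arc.Filled L' Γ' → Arc.IsEllipse Ω') (E' : Arc.IsEllipse Ω')
    {η : ℝ} (η0 : 0 < η) (k : ∀ p n : ℕ, 0 < p → 0 < n → Nat.Coprime p n → (p : ℝ) / n < η →
      maxLength L Γ n p = maxLength L' Γ' n p) :
    ∃ w v : ℂ, ‖w‖ = 1 ∧ Ω = (fun z => w * z + v) '' Ω' := by
  have E : Arc.IsEllipse Ω := ((tfae T B).out 6 0).1
    (SmoothSpectrum.congr (((tfae T' B').out 0 6).1 E') η0 k)
  obtain ⟨a, b⟩ := invariants T T' (Eventually.frequently (by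
    filter_upwards [(tendsto_const_div_atTop_nhds_zero_nat (1 : ℝ)).eventually (gt_mem_nhds η0),
      eventually_gt_atTop 0] with n a b
    exact k 1 n one_pos b (Nat.coprime_one_left n) (by simpa using a)))
  exact congruent T T' E E' a b

end Vale.Agent.N097X
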