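import Vale.Agent.N097X.Loc

/-! # The perimeter of inscribed polygons with many sides -/

namespace Vale.Agent.N097X

open Real Set
open scoped ContDiff

/-- The integral of `κ ^ (2/3)`. -/
noncomputable def laz (Γ : ℝ → ℂ) (x : ℝ) : ℝ := ∫ s in (0 : ℝ)..x, kap Γ s ^ (2 / 3 : ℝ)

/-- A closed smooth unit speed curve of positive curvature. -/
structure Oval (L : ℝ) (Γ : ℝ → ℂ) : Prop where
  L0 : 0 < L
  sm : ContDiff ℝ ∞ Γ
  per : Function.Periodic Γ L
  unit : ∀ s, ‖deriv Γ s‖ = 1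
  pos : ∀ s, 0 < kap Γ s

variable {Γ : ℝ → ℂ} {L : ℝ}

namespace Oval

variable (O : Oval L Γ)
include O

theorem wc : Continuous fun s => kap Γ s ^ (2 / 3 : ℝ) :=
  (kap_cont O.sm).rpow_const fun s => Or.inl (O.pos s).ne'

theorem wp : Function.Periodic (fun s => kap Γ s ^ (2 / 3 : ℝ)) L := fun s => by
  simp only [kap_per O.per s]

theorem w3 (s : ℝ) : (kap Γ s ^ (2 / 3 : ℝ)) ^ 3 = kap Γ s ^ 2 := by
  rw [← rpow_natCast, ← rpow_mul (O.pos s).le, ← rpow_natCast]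
  norm_num

theorem wb : ∃ m M : ℝ, 0 < m ∧ ∀ s, m ≤ kap Γ s ^ (2 / 3 : ℝ) ∧ kap Γ s ^ (2 / 3 : ℝ) ≤ M := by
  have c := O.wp.compact_of_continuous O.L0.ne' O.wc
  obtain ⟨_, ⟨a, rfl⟩, ha⟩ := c.exists_isLeast (range_nonempty _)
  obtain ⟨_, ⟨b, rfl⟩, hb⟩ := c.exists_isGreatest (range_nonempty _)
  exact ⟨_, _, rpow_pos_of_pos (O.pos a) _, fun s => ⟨ha ⟨s, rfl⟩, hb ⟨s, rfl⟩⟩⟩

theorem laz_sub (a b : ℝ) : laz Γ b - laz Γ a = ∫ s in a..b, kap Γ s ^ (2 / 3 : ℝ) :=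
  intervalIntegral.integral_interval_sub_left (O.wc.intervalIntegrable _ _)
    (O.wc.intervalIntegrable _ _)

theorem laz_bd {a b m M : ℝ} (h : a ≤ b)
    (k : ∀ s ∈ Icc a b, m ≤ kap Γ s ^ (2 / 3 : ℝ) ∧ kap Γ s ^ (2 / 3 : ℝ) ≤ M) :
    m * (b - a) ≤ laz Γ b - laz Γ a ∧ laz Γ b - laz Γ a ≤ M * (b - a) := by
  rw [O.laz_sub]
  have a1 := intervalIntegral.integral_mono_on (μ := MeasureTheory.volume) h
    (intervalIntegrable_const (c := m)) (O.wc.intervalIntegrable _ _) fun s hs => (k s hs).1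
  have a2 := intervalIntegral.integral_mono_on (μ := MeasureTheory.volume) h
    (O.wc.intervalIntegrable _ _) (intervalIntegrable_const (c := M)) fun s hs => (k s hs).2
  rw [intervalIntegral.integral_const, smul_eq_mul, mul_comm] at a1 a2
  exact ⟨a1, a2⟩

theorem laz_per (s : ℝ) (p : ℕ) : laz Γ (s + p * L) = laz Γ s + p * laz Γ L := by
  induction p with
  | zero => simp
  | succ p ih =>
    have a := O.laz_sub (s + p * L) (s + p * L + L)
    rw [O.wp.intervalIntegral_add_eq _ 0, zero_add] at a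
    push_cast
    rw [add_mul, one_mul, ← add_assoc, add_mul, one_mul, ← add_assoc, ← ih]
    unfold laz at a ⊢
    linarith

theorem laz_deriv (x : ℝ) : HasDerivAt (laz Γ) (kap Γ x ^ (2 / 3 : ℝ)) x :=
  intervalIntegral.integral_hasDerivAt_right (O.wc.intervalIntegrable _ _)
    (O.wc.stronglyMeasurableAtFilter _ _) O.wc.continuousAt

theorem laz_cont : Continuous (laz Γ) :=
  continuous_iff_continuousAt.2 fun x => (O.laz_deriv x).continuousAt

theorem loc {ε : ℝ} (ε0 : 0 < ε) : ∃ τ, 0 < τ ∧ ∀ a b, a ≤ b → b ≤ a + τ →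
    |b - a - ‖Γ b - Γ a‖ - (laz Γ b - laz Γ a) ^ 3 / 24| ≤ ε * (laz Γ b - laz Γ a) ^ 3 := by
  obtain ⟨m, M, m0, hm⟩ := O.wb
  have M0 : 0 < M := m0.trans_le ((hm 0).1.trans (hm 0).2)
  obtain ⟨τ, τ0, h⟩ := defect O.sm O.L0 O.per O.unit (η := ε * m ^ 3 / 2) (by positivity)
  obtain ⟨τ', τ1, h'⟩ := per_unif O.L0 O.wc O.wp (η := ε * m ^ 3 / M ^ 2) (by positivity)
  refine ⟨min τ τ', lt_min τ0 τ1, fun a b ab ba => ?_⟩
  have t0 : 0 ≤ b - a := by linarith
  have a1 := abs_le.1 (h a (b - a) ⟨t0, by linarith [min_le_left τ τ']⟩)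
  obtain ⟨a2, a3⟩ := O.laz_bd ab fun s _ => hm s
  obtain ⟨a4, a5⟩ := O.laz_bd (m := kap Γ a ^ (2 / 3 : ℝ) - ε * m ^ 3 / M ^ 2)
    (M := kap Γ a ^ (2 / 3 : ℝ) + ε * m ^ 3 / M ^ 2) ab fun s hs => by
      have := abs_le.1 (h' a (s - a) ⟨by linarith [hs.1], by linarith [hs.2, min_le_right τ τ']⟩)
      simp only [add_sub_cancel] at this
      constructor <;> linarith [this.1, this.2]
  rw [add_sub_cancel, ← O.w3 a] at a1
  obtain ⟨w0, w1⟩ := hm a
  generalize kap Γ a ^ (2 / 3 : ℝ) = w at *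
  generalize laz Γ b - laz Γ a = W at *
  generalize ‖Γ b - Γ a‖ = c at *
  generalize b - a = t at *
  have W0 : 0 ≤ W := le_trans (by positivity) a2
  have wt : 0 ≤ w * t := mul_nonneg (m0.le.trans w0) t0
  have b0 : w * t ≤ M * t := by gcongr
  have b1 : |W - w * t| ≤ ε * m ^ 3 / M ^ 2 * t := abs_le.2 ⟨by linarith, by linarith⟩
  have b2 : |W ^ 3 - (w * t) ^ 3| ≤ 3 * (ε * (m * t) ^ 3) := by
    rw [show W ^ 3 - (w * t) ^ 3 = (W - w * t) * (W ^ 2 + W * (w * t) + (w * t) ^ 2) by ring,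
      abs_mul, abs_of_nonneg (a := W ^ 2 + W * (w * t) + (w * t) ^ 2) (by positivity)]
    calc _ ≤ ε * m ^ 3 / M ^ 2 * t * ((M * t) ^ 2 + M * t * (M * t) + (M * t) ^ 2) := by gcongr
      _ = _ := by field_simp; ring
  have b3 : ε * (m * t) ^ 3 ≤ ε * W ^ 3 := by gcongr
  have b4 : 0 ≤ ε * (m * t) ^ 3 := by positivity
  rw [abs_le] at b2 ⊢
  constructor <;> nlinarith [a1.1, a1.2, b2.1, b2.2]

theorem laz_pos : 0 < laz Γ L := by
  obtain ⟨m, M, m0, hm⟩ := O.wb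
  have := (O.laz_bd O.L0.le fun s _ => hm s).1
  have h0 : laz Γ 0 = 0 := by simp [laz]
  nlinarith [O.L0]

omit O in
theorem sum_defect (s : ℕ → ℝ) (n : ℕ) :
    ∑ j ∈ Finset.range n, (s (j + 1) - s j - ‖Γ (s (j + 1)) - Γ (s j)‖) =
      s n - s 0 - ∑ j ∈ Finset.range n, ‖Γ (s (j + 1)) - Γ (s j)‖ := by
  rw [Finset.sum_sub_distrib, Finset.sum_range_sub]

/-- Every inscribed polygon is shorter than the curve by at least the main term. -/
theorem low {ε : ℝ} (ε0 : 0 < ε) : ∃ η, 0 < η ∧ ∀ n p : ℕ, 0 < n → (p : ℝ) / n < η →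
    ∀ s : ℕ → ℝ, (∀ j, s j ≤ s (j + 1) ∧ s (j + 1) ≤ s j + L) → s n = s 0 + p * L →
      (1 / 24 - ε) * (n * (p / n * laz Γ L) ^ 3) ≤
        p * L - ∑ j ∈ Finset.range n, ‖Γ (s (j + 1)) - Γ (s j)‖ := by
  wlog e : ε < 1 / 24 generalizing ε
  · obtain ⟨η, η0, h⟩ := this (ε := 1 / 48) (by norm_num) (by norm_num)
    refine ⟨η, η0, fun n p n0 l s hs e' => le_trans ?_ (h n p n0 l s hs e')⟩
    have := O.laz_pos
    exact mul_le_mul_of_nonneg_right (by linarith) (by positivity)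
  obtain ⟨m, M, m0, hm⟩ := O.wb
  have M0 : 0 < M := m0.trans_le ((hm 0).1.trans (hm 0).2)
  obtain ⟨τ, τ0, h⟩ := O.loc ε0
  have I0 := O.laz_pos
  have L0 := O.L0
  refine ⟨min 1 ((m * τ) ^ 3 / (3 * M * L * laz Γ L ^ 2)), lt_min one_pos (by positivity),
    fun n p n0 l s hs e' => ?_⟩
  obtain ⟨V, hV⟩ : ∃ V, V = p / n * laz Γ L := ⟨_, rfl⟩
  have V0 : 0 ≤ V := by rw [hV]; positivity
  have V1 : 3 * V ^ 2 * (M * L) ≤ (m * τ) ^ 3 := by
    have a := (lt_div_iff₀ (by positivity)).1 (l.trans_le (min_le_right _ _))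
    have b := l.trans_le (min_le_left _ _)
    have c : (0 : ℝ) ≤ p / n := by positivity
    have d : 0 < 3 * M * L * laz Γ L ^ 2 := by positivity
    rw [hV]
    generalize (p : ℝ) / n = r at *
    nlinarith [mul_nonneg (mul_nonneg c d.le) (sub_nonneg.2 b.le)]
  have key : ∀ a b, a ≤ b → b ≤ a + L →
      (1 / 24 - ε) * (V ^ 3 + 3 * V ^ 2 * (laz Γ b - laz Γ a - V)) ≤ b - a - ‖Γ b - Γ a‖ := by
    intro a b ab ba
    obtain ⟨a2, a3⟩ := O.laz_bd ab fun s _ => hm s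
    have W0 : 0 ≤ laz Γ b - laz Γ a := le_trans (mul_nonneg m0.le (by linarith)) a2
    rcases le_total b (a + τ) with c | c
    · have := (abs_le.1 (h a b ab c)).1
      generalize laz Γ b - laz Γ a = W at *
      have : (1 / 24 - ε) * (V ^ 3 + 3 * V ^ 2 * (W - V)) ≤ (1 / 24 - ε) * W ^ 3 :=
        mul_le_mul_of_nonneg_left (by
          nlinarith [mul_nonneg (sq_nonneg (W - V)) (add_nonneg W0 (mul_nonneg zero_le_two V0))])
          (by linarith)
      linarith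
    · have b1 := (abs_le.1 (h a (a + τ) (by linarith) le_rfl)).1
      have b2 := (O.laz_bd (a := a) (b := a + τ) (by linarith) fun s _ => hm s).1
      have b3 := chord_le O.sm O.unit c
      have b4 := norm_sub_le_norm_sub_add_norm_sub (Γ b) (Γ (a + τ)) (Γ a)
      rw [add_sub_cancel_left] at b1 b2
      have b5 : (m * τ) ^ 3 ≤ (laz Γ (a + τ) - laz Γ a) ^ 3 := by gcongr
      have b6 : laz Γ b - laz Γ a ≤ M * L := a3.trans (by gcongr; linarith)
      generalize laz Γ b - laz Γ a = W at *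
      generalize laz Γ (a + τ) - laz Γ a = U at *
      have : (1 / 24 - ε) * (V ^ 3 + 3 * V ^ 2 * (W - V)) ≤ (1 / 24 - ε) * U ^ 3 :=
        mul_le_mul_of_nonneg_left (by
          nlinarith [pow_nonneg V0 3, mul_le_mul_of_nonneg_left b6 (sq_nonneg V)]) (by linarith)
      linarith
  have S := Finset.sum_le_sum (s := Finset.range n) fun j _ => key _ _ (hs j).1 (hs j).2
  rw [sum_defect, ← Finset.mul_sum, Finset.sum_add_distrib, ← Finset.mul_sum,
    Finset.sum_sub_distrib, Finset.sum_range_sub (fun j => laz Γ (s j)), e', O.laz_per] at S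
  simp only [Finset.sum_const, Finset.card_range, nsmul_eq_mul, add_sub_cancel_left] at S
  have : p * laz Γ L - n * V = 0 := by rw [hV]; field_simp; ring
  rw [this, mul_zero, add_zero] at S
  rwa [← hV]

/-- Some inscribed polygon is shorter than the curve by at most the main term. -/
theorem up {ε : ℝ} (ε0 : 0 < ε) : ∃ η, 0 < η ∧ ∀ n p : ℕ, 0 < n → (p : ℝ) / n < η →
    ∃ s : ℕ → ℝ, (∀ j, s j ≤ s (j + 1) ∧ s (j + 1) ≤ s j + L) ∧ s n = s 0 + p * L ∧
      p * L - ∑ j ∈ Finset.range n, ‖Γ (s (j + 1)) - Γ (s j)‖ ≤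
        (1 / 24 + ε) * (n * (p / n * laz Γ L) ^ 3) := by
  obtain ⟨m, M, m0, hm⟩ := O.wb
  obtain ⟨τ, τ0, h⟩ := O.loc ε0
  have I0 := O.laz_pos
  have L0 := O.L0
  have mo : StrictMono (laz Γ) := fun a b ab => by
    have := (O.laz_bd ab.le fun s _ => hm s).1
    nlinarith
  have su : ∀ y, 0 ≤ y → ∃ x, laz Γ x = y := fun y y0 => by
    have a := (O.laz_bd (a := 0) (b := y / m) (by positivity) fun s _ => hm s).1
    have h0 : laz Γ 0 = 0 := by simp [laz]
    rw [h0, sub_zero, sub_zero, mul_div_cancel₀ _ m0.ne'] at a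
    obtain ⟨x, -, e⟩ := intermediate_value_Icc (a := 0) (b := y / m) (by positivity)
      O.laz_cont.continuousOn ⟨h0.le.trans y0, a⟩
    exact ⟨x, e⟩
  refine ⟨m * min τ L / laz Γ L, by have := lt_min τ0 L0; positivity, fun n p n0 l => ?_⟩
  obtain ⟨V, hV⟩ : ∃ V, V = p / n * laz Γ L := ⟨_, rfl⟩
  have V0 : 0 ≤ V := by rw [hV]; positivity
  have V1 : V < m * min τ L := by rw [hV]; exact (lt_div_iff₀ I0).1 l
  choose s hs using fun j : ℕ => su (j * V) (by positivity)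
  have d : ∀ j, laz Γ (s (j + 1)) - laz Γ (s j) = V := fun j => by
    rw [hs, hs]; push_cast; ring
  have a : ∀ j, s j ≤ s (j + 1) := fun j => mo.le_iff_le.1 (by linarith [d j])
  have b : ∀ j, s (j + 1) ≤ s j + min τ L := fun j => by
    have := (O.laz_bd (a j) fun s _ => hm s).1
    rw [d] at this
    nlinarith
  have e : s n = s 0 + p * L := mo.injective (by
    rw [O.laz_per, hs, hs, hV]; field_simp; simp [mul_comm])
  refine ⟨s, fun j => ⟨a j, by linarith [b j, min_le_right τ L]⟩, e, ?_⟩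
  have S := Finset.sum_le_sum (s := Finset.range n)
    (f := fun j => s (j + 1) - s j - ‖Γ (s (j + 1)) - Γ (s j)‖) (g := fun _ => (1 / 24 + ε) * V ^ 3)
    fun j _ => by
      have := (abs_le.1 (h _ _ (a j) (by linarith [b j, min_le_left τ L]))).2
      rw [d] at this
      linarith
  rw [sum_defect, e] at S
  simp only [Finset.sum_const, Finset.card_range, nsmul_eq_mul, add_sub_cancel_left] at S
  rw [← hV]
  linarith

end Oval

end Vale.Agent.N097X
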