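import Vale.Agent.N097X.Main

/-! # Proportional spectra give similar ellipses -/

namespace Vale.Agent.N097X

open Real Set Filter Topology Vale.Agent.N097 Vale.Agent.P097B

variable {Ω Ω' : Set ℂ} {L L' : ℝ} {Γ Γ' : ℝ → ℂ}

theorem invariants_mul (T : Arc.Table Ω L Γ) (T' : Arc.Table Ω' L' Γ') {r : ℝ}
    (e : ∃ᶠ n in atTop, maxLength L Γ n 1 = r * maxLength L' Γ' n 1) :
    L = r * L' ∧ laz Γ L ^ 3 = r * laz Γ' L' ^ 3 := by
  obtain ⟨φ, mo, hφ⟩ := extraction_of_frequently_atTop e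
  have a := ((tendsto_one T).sub ((tendsto_one T').const_mul r)).comp mo.tendsto_atTop
  have b : Tendsto (fun k => ((φ k : ℕ) : ℝ) ^ 2 * (L - r * L')) atTop
      (𝓝 (laz Γ L ^ 3 / 24 - r * (laz Γ' L' ^ 3 / 24))) := a.congr fun k => by
    simp only [Function.comp, hφ]; ring
  have c : Tendsto (fun k => (((φ k : ℕ) : ℝ) ^ 2)⁻¹) atTop (𝓝 0) :=
    tendsto_inv_atTop_zero.comp ((tendsto_pow_atTop two_ne_zero).comp
      (tendsto_natCast_atTop_atTop.comp mo.tendsto_atTop))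
  have d : L - r * L' = 0 := by
    have := c.mul b
    rw [zero_mul] at this
    refine tendsto_nhds_unique (tendsto_const_nhds.congr' ?_) this
    filter_upwards [mo.tendsto_atTop.eventually_gt_atTop 0] with k hk
    field_simp
  simp only [d, mul_zero] at b
  exact ⟨by linarith, by linarith [tendsto_nhds_unique b tendsto_const_nhds]⟩

theorem disc_scale (c : ℂ) (a b φ : ℝ) {r : ℝ} (r0 : 0 < r) :
    disc (r * c) (r * a) (r * b) φ = (fun z : ℂ => r * z) '' disc c a b φ := by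
  have m : ∀ z : ℂ, r * z ∈ disc (r * c) (r * a) (r * b) φ ↔ z ∈ disc c a b φ := fun z => by
    simp only [disc, mem_ofPred_eq, ← mul_sub, mul_assoc, Complex.re_ofReal_mul,
      Complex.im_ofReal_mul, mul_div_mul_left _ _ r0.ne']
  have r1 : (r : ℂ) ≠ 0 := by exact_mod_cast r0.ne'
  refine Set.ext fun z => ⟨fun h => ?_, ?_⟩
  · have : r * (z / r) = z := by field_simp
    exact ⟨_, (m _).1 (this.symm ▸ h), this⟩
  · rintro ⟨y, hy, rfl⟩
    exact (m y).2 hy

/-- Two ellipses whose spectra are proportional for infinitely many `n` are similar. -/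
theorem similar (T : Arc.Table Ω L Γ) (T' : Arc.Table Ω' L' Γ') (E : Arc.IsEllipse Ω)
    (E' : Arc.IsEllipse Ω') {r : ℝ} (r0 : 0 < r)
    (k : ∃ᶠ n : ℕ in atTop, maxLength L Γ n 1 = r * maxLength L' Γ' n 1) :
    ∃ u v : ℂ, ‖u‖ = r ∧ Ω = (fun z => u * z + v) '' Ω' := by
  obtain ⟨e, e'⟩ := invariants_mul T T' k
  obtain ⟨c, a, b, φ, b0, ba, h⟩ := disc_of E
  obtain ⟨c', a', b', φ', b0', ba', h'⟩ := disc_of E'
  obtain ⟨i1, i2⟩ := disc_ints T b0 ba h
  obtain ⟨j1, j2⟩ := disc_ints T' b0' ba' h'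
  have q : (r * b') ^ 2 / (r * a') ^ 2 = b' ^ 2 / a' ^ 2 := by
    rw [mul_pow, mul_pow, mul_div_mul_left _ _ (by positivity)]
  obtain ⟨rfl, rfl⟩ := shape_unique (c := r * a') (d := r * b') b0 ba (by positivity) (by gcongr)
    (by rw [q, ← i1, mul_assoc, ← j1, e]) (by rw [q, ← i2, mul_assoc, ← j2, e'])
  obtain ⟨w, v, w1, m⟩ := disc_move c (r * c') (r * a') (r * b') φ φ'
  refine ⟨w * r, v, by rw [norm_mul, w1, one_mul, Complex.norm_real, Real.norm_of_nonneg r0.le], ?_⟩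
  rw [h, h', m, disc_scale _ _ _ _ r0, image_image]
  simp only [mul_assoc]

end Vale.Agent.N097X
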